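import Vale.Agent.Lib.P015.Curves

/-!
# P015 (Gaussian moat problem): no walk to infinity along a polynomial curve

For every polynomial `P` with integer coefficients, every nonzero integer `q`, every `K` and
every step bound `D`, there is no infinite sequence of pairwise distinct Gaussian primes
`x + y i` with successive Euclidean distances at most `D` all of whose terms satisfy
`|q y - P x| ≤ K`, that is, lie within vertical distance `K / |q|` of the curve `y = P x / q`
(the graph of an arbitrary polynomial with rational coefficients).  Gaussian integers are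
`GaussianInt`, Gaussian primes are its irreducible elements, and `x + y i` is the point `(x, y)`.
-/

namespace Vale.Agent.Results.P015.PolynomialCurves

theorem result (P : Polynomial ℤ) (q : ℤ) (hq : q ≠ 0) (K D : ℝ) :
    ¬ ∃ z : ℕ → GaussianInt, Function.Injective z ∧ (∀ k, Irreducible (z k)) ∧
      (∀ k, (((z (k + 1)).re : ℝ) - (z k).re) ^ 2
        + (((z (k + 1)).im : ℝ) - (z k).im) ^ 2 ≤ D ^ 2) ∧
      (∀ k, |(q : ℝ) * ((z k).im : ℝ) - ((P.eval (z k).re : ℤ) : ℝ)| ≤ K) := by
  rintro ⟨z, hinj, hirr, hstep, hreg⟩
  exact Vale.Agent.Lib.P015.no_walk_poly P q hq K D z hinj hirr hstep hreg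

end Vale.Agent.Results.P015.PolynomialCurves
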