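import Vale.Agent.Lib.P015.Disks

/-!
# P015 (Gaussian moat problem): prime-free disks centred on an arbitrary real line

For every real line `a x + b y = c` (any slope, rational or irrational, and any offset), every
radius `r` and every bound `R` there are points `(p, q)` on the line, one with coordinate
`-b p + a q` along the line at least `R` and one with that coordinate at most `-R`, such that
the closed disk of radius `r` about `(p, q)` contains no Gaussian prime.  Gaussian integers are
`GaussianInt`, Gaussian primes are its irreducible elements, and `x + y i` is the point `(x, y)`.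
-/

namespace Vale.Agent.Results.P015.PrimeFreeDisks

theorem result (a b c : ℝ) (hab : a ≠ 0 ∨ b ≠ 0) (r R : ℝ) :
    (∃ p q : ℝ, a * p + b * q = c ∧ R ≤ -b * p + a * q ∧
      ∀ z : GaussianInt, ((z.re : ℝ) - p) ^ 2 + ((z.im : ℝ) - q) ^ 2 ≤ r ^ 2 → ¬ Irreducible z) ∧
    (∃ p q : ℝ, a * p + b * q = c ∧ -b * p + a * q ≤ -R ∧
      ∀ z : GaussianInt, ((z.re : ℝ) - p) ^ 2 + ((z.im : ℝ) - q) ^ 2 ≤ r ^ 2 → ¬ Irreducible z) := by
  refine ⟨Vale.Agent.Lib.P015.prime_free_disks a b c hab r R, ?_⟩
  obtain ⟨p, q, h1, h2, h3⟩ := Vale.Agent.Lib.P015.prime_free_disks (-a) (-b) (-c)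
    (by
      rcases hab with h | h
      · exact Or.inl (neg_ne_zero.mpr h)
      · exact Or.inr (neg_ne_zero.mpr h)) r R
  exact ⟨p, q, by linarith, by linarith, h3⟩

end Vale.Agent.Results.P015.PrimeFreeDisks
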