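import Vale.Agent.Lib.P015.Walk

/-!
# P015 (Gaussian moat problem): no walk to infinity inside a strip around any line

For every real line `a x + b y = c` (any slope, rational or irrational, and any offset),
every width parameter `K` and every step bound `D`, there is no infinite sequence of pairwise
distinct Gaussian primes with successive Euclidean distances at most `D` all of whose terms
lie in the strip `|a x + b y - c| ≤ K` (the points at distance at most `K / sqrt (a^2 + b^2)`
from the line).  Gaussian integers are `GaussianInt`, Gaussian primes are its irreducible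
elements, and `x + y i` is the point `(x, y)`.
-/

namespace Vale.Agent.Results.P015.Strips

theorem result (a b c K D : ℝ) (hab : a ≠ 0 ∨ b ≠ 0) :
    ¬ ∃ z : ℕ → GaussianInt, Function.Injective z ∧ (∀ k, Irreducible (z k)) ∧
      (∀ k, (((z (k + 1)).re : ℝ) - (z k).re) ^ 2
        + (((z (k + 1)).im : ℝ) - (z k).im) ^ 2 ≤ D ^ 2) ∧
      (∀ k, |a * (z k).re + b * (z k).im - c| ≤ K) := by
  rintro ⟨z, hinj, hirr, hstep, hstrip⟩
  exact Vale.Agent.Lib.P015.no_walk a b c K D hab z hinj hirr hstep hstrip

end Vale.Agent.Results.P015.Strips
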