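import Vale.Agent.Results.P015.Strips
import Vale.Agent.Results.P015.PolynomialCurves
import Vale.Agent.Results.P015.PrimeFreeDisks

/-!
# P015 (Gaussian moat problem): strips, polynomial curves and prime-free disks in one statement

The conjunction of the three hand-ins `Strips`, `PolynomialCurves` and `PrimeFreeDisks`.

1. No infinite sequence of pairwise distinct Gaussian primes with bounded steps stays in a strip
   of bounded width around a real line `a x + b y = c`.
2. No such sequence stays within bounded vertical distance of the curve `q y = P x`, `P` a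
   polynomial with integer coefficients and `q` a nonzero integer.
3. Every real line carries, arbitrarily far out in both directions, centres of closed disks of
   any given radius that contain no Gaussian prime.

Gaussian integers are `GaussianInt`, Gaussian primes are its irreducible elements, and `x + y i`
is the point `(x, y)`.
-/

namespace Vale.Agent.Results.P015.StripsCurvesDisks

theorem result :
    (∀ (a b c K D : ℝ), (a ≠ 0 ∨ b ≠ 0) →
      ¬ ∃ z : ℕ → GaussianInt, Function.Injective z ∧ (∀ k, Irreducible (z k)) ∧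
        (∀ k, (((z (k + 1)).re : ℝ) - (z k).re) ^ 2
          + (((z (k + 1)).im : ℝ) - (z k).im) ^ 2 ≤ D ^ 2) ∧
        (∀ k, |a * (z k).re + b * (z k).im - c| ≤ K)) ∧
    (∀ (P : Polynomial ℤ) (q : ℤ), q ≠ 0 → ∀ (K D : ℝ),
      ¬ ∃ z : ℕ → GaussianInt, Function.Injective z ∧ (∀ k, Irreducible (z k)) ∧
        (∀ k, (((z (k + 1)).re : ℝ) - (z k).re) ^ 2
          + (((z (k + 1)).im : ℝ) - (z k).im) ^ 2 ≤ D ^ 2) ∧
        (∀ k, |(q : ℝ) * ((z k).im : ℝ) - ((P.eval (z k).re : ℤ) : ℝ)| ≤ K)) ∧
    (∀ (a b c : ℝ), (a ≠ 0 ∨ b ≠ 0) → ∀ (r R : ℝ),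
      (∃ p q : ℝ, a * p + b * q = c ∧ R ≤ -b * p + a * q ∧
        ∀ z : GaussianInt, ((z.re : ℝ) - p) ^ 2 + ((z.im : ℝ) - q) ^ 2 ≤ r ^ 2 →
          ¬ Irreducible z) ∧
      (∃ p q : ℝ, a * p + b * q = c ∧ -b * p + a * q ≤ -R ∧
        ∀ z : GaussianInt, ((z.re : ℝ) - p) ^ 2 + ((z.im : ℝ) - q) ^ 2 ≤ r ^ 2 →
          ¬ Irreducible z)) :=
  ⟨fun a b c K D hab => Vale.Agent.Results.P015.Strips.result a b c K D hab,
   fun P q hq K D => Vale.Agent.Results.P015.PolynomialCurves.result P q hq K D,
   fun a b c hab r R => Vale.Agent.Results.P015.PrimeFreeDisks.result a b c hab r R⟩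

end Vale.Agent.Results.P015.StripsCurvesDisks
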